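import Vale.Agent.P092UQ.Avg
import Vale.Agent.P092HR.Defs
import Vale.Agent.P092PK.Leg

/-!
P092, higher rank (helper22): the output for one coupling.
-/

set_option linter.all false

open scoped InnerProductSpace ENNReal NNReal
open MeasureTheory Filter Topology ContinuousLinearMap Set

namespace Vale.Agent.P092UQ

open Vale.Agent.P092CP Vale.Agent.P092RD Vale.Agent.P092GK Vale.Agent.P092HR
open Vale.Agent.P092EN (UQ)

variable {k : Type} [NontriviallyNormedField k] [ProperSpace k] {G K : Type} [Group G]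
  [TopologicalSpace G] [IsTopologicalGroup G] [LocallyCompactSpace G] [SecondCountableTopology G]
  [T2Space G] [MeasurableSpace G] [BorelSpace G] [NormedAddCommGroup K] [InnerProductSpace ℂ K]
  [CompleteSpace K] {μ : Measure G} [μ.IsHaarMeasure] {W : Set (K →L[ℂ] K)} {r : ℕ}
  {X : Type} [NormedAddCommGroup X] [NormedSpace ℝ X] {F : FlD k G r} {C : Cpl μ μ W}
  {L : Aa r →ₗ[ℝ] Aa r} {E : POM (YY F) K} {θ₀ : POM (ZZ F) K} {H : Subgroup G}
  {t : Aa r →ₗ[ℝ] X} {θ : POM (G ⧸ H) K}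

/-- **UQ** for one side -/
theorem uq_sd (g : Gr F) (a : Sd F C L E θ₀ H t θ) :
    ∃ S : Subgroup G, Group.IsSolvable S ∧ ∀ [CompactSpace (YY F)],
      UQ (C.s.π.comp S.subtype) C.t.π W fun f : C(YY F, ℂ) => E.f f := by
  have h := g.fl
  obtain ⟨p, hp, -, h1⟩ := a.reg
  obtain ⟨q, hq, e⟩ := a.sp.lat p hp
  have hp' := h.z_mem_P hp Finset.univ
  obtain ⟨η, hη⟩ := exists_hm (h.Ht_cl a.cs.src)
  obtain ⟨S, s1, s2⟩ := exists_compact_mem_nhds ((1 : G) : G ⧸ H)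
  haveI := h.Ht_cl a.cs.src
  have Q : Tq F H C θ H η p q := ⟨a.tx.isP, a.tx.inv.cm, a.tx.inv.cov, hη,
    fun x hx => h.uni_Ht a.cs.src a.cs.rho hx, fun x hx f hf =>
      (a.tx.mv x (a.cs.src.le hx) 1 (one_mem _) (by
        rw [h.ℓ_one, map_zero]; exact ((a.cs.src x).1 hx).2.symm) f hf).trans
        (congrArg _ (funext fun y => congrArg f (rt_of_mem H.one_mem y))),
    h.Ht_nrm a.cs.src hp', hq, fun i => e ▸ h1 i,
    a.tx.mv p hp' q (h.z_mem_P hq _) (congrArg t e), by rw [h.mdl_Ht a.cs.src hp', e, a.rho],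
    S, s2, s1.measurableSet, a.fin η hη S s1⟩
  obtain ⟨S, sol, u⟩ := Q.uq h h a.cs.tgt a.cs.src.le hp'
  refine ⟨S, sol, ?_⟩
  intro _
  rw [funext fun f : C(YY F, ℂ) => (a.tx.dir f (bd_c f)).symm]
  exact u

/-- **The output** for one coupling -/
theorem out_of_sd (g : Gr F) (a : Sd F C L E θ₀ H t θ) (nd : Nd F C E) (com : Com C θ) :
    P092PK.Out F C E := by
  haveI := g.fl.compactY Finset.univ
  have m := (g.fl.cont_dir a.cs.tgt Finset.univ).measurable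
  refine ⟨a.eb.isP, a.eb.inv.cm, a.eb.inv.cov, fun x f f' => ?_, nd, uq_sd g a⟩
  rw [← a.tx.dir f (bd_c f), ← a.tx.dir f' (bd_c f')]
  exact com x _ _ (bd_comp (bd_c f) m) (bd_comp (bd_c f') m)

/-- **Higher rank**: the core statement from the blocks -/
theorem over_of_sd {μ : Measure G} [μ.IsHaarMeasure] (g : Gr F)
    (A : ∀ (K : Type) [NormedAddCommGroup K] [InnerProductSpace ℂ K] [CompleteSpace K]
      (W : Set (K →L[ℂ] K)) (C : Cpl μ μ W), ∃ (L : Aa r →ₗ[ℝ] Aa r) (E : POM (YY F) K)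
      (θ₀ : POM (ZZ F) K) (θ : POM (G ⧸ H) K), Sd F C L E θ₀ H t θ ∧ Nd F C E ∧ Com C θ) :
    P092.H678.OV.OverStmt G :=
  P092PK.over_of_out (μ := μ) g.fl ⟨0, zero_lt_two.trans_le g.two⟩ fun K _ _ _ W C =>
    let ⟨_, E, _, _, a, b, c⟩ := A K W C; ⟨E, out_of_sd g a b c⟩

end Vale.Agent.P092UQ
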