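import Vale.Agent.P092UQ.Orth
import Vale.Agent.P092EH.Mag
import Vale.Agent.P092SO.Sol
import Vale.Agent.P092EN.Cp
import Vale.Agent.P092RD.Agr
import Mathlib.MeasureTheory.Group.FundamentalDomain

/-!
P092, higher rank (helper22): uniqueness of the boundary map for a solvable group, by averaging
over the compact quotient and extremality.
-/

set_option linter.all false

open scoped InnerProductSpace ENNReal NNReal Pointwise
open MeasureTheory Filter Topology ContinuousLinearMap Set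

namespace Vale.Agent.P092UQ

open Vale.Agent.P092CP Vale.Agent.P092RD Vale.Agent.P092GK Vale.Agent.P092EH Vale.Agent.P092TH
open Vale.Agent.P092EN (UQ Ucp)
open Vale.Agent.P092.RC (Cm Moore)

variable {G G' K : Type} [Group G] [TopologicalSpace G] [IsTopologicalGroup G]
  [LocallyCompactSpace G] [SecondCountableTopology G] [T2Space G] [MeasurableSpace G] [BorelSpace G]
  [Group G'] [TopologicalSpace G'] [IsTopologicalGroup G'] [LocallyCompactSpace G']
  [SecondCountableTopology G'] [T2Space G'] [MeasurableSpace G'] [BorelSpace G']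
  [NormedAddCommGroup K] [InnerProductSpace ℂ K] [CompleteSpace K] {μ : Measure G}
  [μ.IsHaarMeasure] {μ' : Measure G'} [μ'.IsHaarMeasure] {W : Set (K →L[ℂ] K)}

/-- `ν` looks invariant under `P` to the functions which are right invariant under `S` -/
structure Mean (ν : Measure G) (S P : Subgroup G) : Prop where
  pos : ∀ U ∈ 𝓝 (1 : G), ν U ≠ 0
  inv : ∀ f : G → ℂ, Continuous f → (∀ g, ∀ s ∈ S, f (g * s) = f g) →
    ∀ p ∈ P, ∫ g, f (p * g) ∂ν = ∫ g, f g ∂ν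

section av

variable {Y : Type} [TopologicalSpace Y] [CompactSpace Y] [MulAction G' Y] {ν : Measure G}
  [IsProbabilityMeasure ν]

theorem isL_av (S : Side μ W) (ν : Measure G) [IsProbabilityMeasure ν] (x : K →L[ℂ] K) :
    IsL S (pure ()) (fun _ => ν) (fun _ => x) (av S ν x) := fun _ _ => tendsto_const_nhds

/-- the average of a map -/
noncomputable def avm (S : Side μ W) (ν : Measure G) [IsProbabilityMeasure ν]
    (Ψ : C(Y, ℂ) →ₗ[ℂ] (K →L[ℂ] K)) : C(Y, ℂ) →ₗ[ℂ] (K →L[ℂ] K) where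
  toFun f := av S ν (Ψ f)
  map_add' f g := by
    rw [map_add]
    exact (isL_av S ν _).unique ((isL_av S ν _).add (isL_av S ν _))
  map_smul' c f := by
    rw [map_smul]
    exact (isL_av S ν _).unique ((isL_av S ν _).smul c)

theorem ucp_avm (S : Side μ W) {Ψ : C(Y, ℂ) →ₗ[ℂ] (K →L[ℂ] K)} (h : Ucp Ψ) : Ucp (avm S ν Ψ) where
  adj f := ext_inner fun ξ η => by
    show ⟪ξ, adjoint (av S ν (Ψ f)) η⟫_ℂ = ⟪ξ, av S ν (Ψ (star f)) η⟫_ℂ
    rw [adjoint_inner_right, ← inner_conj_symm, inner_av, inner_av, ← integral_conj, ← h.adj]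
    simp only [inner_conj_symm, adjoint_inner_right]
  cp n f ζ := by
    show 0 ≤ (∑ i, ∑ j, ⟪ζ i, av S ν (Ψ (star (f i) * f j)) (ζ j)⟫_ℂ).re
    simp only [inner_av]
    rw [Finset.sum_congr rfl fun i _ => (integral_finset_sum _ fun j _ => int_co S ν _ _ _).symm,
      ← integral_finset_sum _ fun i _ => integrable_finset_sum _ fun j _ => int_co S ν _ _ _]
    refine le_trans (integral_nonneg (μ := ν) fun g => h.cp n f fun i => S.π g⁻¹ (ζ i))
      (le_of_eq ?_)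
    exact integral_re (integrable_finset_sum _ fun i _ => integrable_finset_sum _ fun j _ =>
      int_co S ν _ _ _)
  one := by
    show av S ν (Ψ 1) = 1
    rw [h.one]
    exact (isL_av S ν _).unique isL_one

theorem uq_of_mean (C : Cpl μ μ' W) {S P : Subgroup G} (m : Mean ν S P)
    {Φ : C(Y, ℂ) → (K →L[ℂ] K)} (mul : ∀ f, Φ (star f * f) = adjoint (Φ f) * Φ f)
    (h : UQ (C.s.π.comp P.subtype) C.t.π W Φ) : UQ (C.s.π.comp S.subtype) C.t.π W Φ := by
  intro Ψ h1 h2 h3 h4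
  have e : ∀ f, av C.s ν (Ψ f) = Φ f := h (avm C.s ν Ψ) (ucp_avm C.s h1)
    (fun f => cm_av C.s ν (h2 f)) (fun γ f f' e => by
      refine ((isL_av C.s ν (Ψ f)).mul_cp (fun g => (C.comm g γ).symm)
        fun g => (C.comm g γ⁻¹).symm).unique ?_
      rw [h3 γ f f' e]
      exact isL_av C.s ν _) fun p f => ext_inner fun ξ η => by
    show ⟪ξ, C.s.π p (av C.s ν (Ψ f) (C.s.π (p : G)⁻¹ η))⟫_ℂ = ⟪ξ, av C.s ν (Ψ f) η⟫_ℂ
    rw [← adjoint_inner_left, C.s.adj, inner_av, inner_av, ← m.inv _ (cont_co C.s (Ψ f) ξ η)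
      (fun g s hs => ?_) p p.2]
    · simp only [mul_inv_rev, pi_ap]
    · have e := ap_eq (h4 ⟨s, hs⟩ f) (C.s.π g⁻¹ η)
      rw [← e, mul_inv_rev, ← pi_ap, ← pi_ap, ← C.s.adj s, adjoint_inner_left, C.s.adj s]
      rfl
  intro f
  ext ξ
  by_contra h0
  have c1 : Continuous fun g => ‖(C.s.π g * Ψ f * C.s.π g⁻¹) ξ - Φ f ξ‖ ^ 2 :=
    ((C.s.cont_conj _ ξ).sub continuous_const).norm.pow 2
  have i1 := (int_co C.s ν (Ψ (star f * f)) ξ ξ).re
  have i2 := (int_co C.s ν (Ψ f) (Φ f ξ) ξ).re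
  have i3 := (i1.sub (i2.const_mul 2)).add (integrable_const (‖Φ f ξ‖ ^ 2))
  have le : ∀ g, ‖(C.s.π g * Ψ f * C.s.π g⁻¹) ξ - Φ f ξ‖ ^ 2 ≤
      RCLike.re ⟪C.s.π g⁻¹ ξ, Ψ (star f * f) (C.s.π g⁻¹ ξ)⟫_ℂ -
        2 * RCLike.re ⟪C.s.π g⁻¹ (Φ f ξ), Ψ f (C.s.π g⁻¹ ξ)⟫_ℂ + ‖Φ f ξ‖ ^ 2 := fun g => by
    rw [norm_sub_sq (𝕜 := ℂ), mapp, mapp, C.s.norm_π, inner_re_symm, ← adjoint_inner_left,
      C.s.adj]
    linarith [h1.ks f (C.s.π g⁻¹ ξ), RCLike.re_to_complex
      (x := ⟪C.s.π g⁻¹ ξ, Ψ (star f * f) (C.s.π g⁻¹ ξ)⟫_ℂ)]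
  have i4 := i3.mono' c1.aestronglyMeasurable (.of_forall fun g => by
    rw [Real.norm_of_nonneg (sq_nonneg _)]; exact le g)
  have z := integral_mono i4 i3 le
  rw [integral_add' (i1.sub (i2.const_mul 2)) (integrable_const _), integral_sub' i1 (i2.const_mul 2),
    integral_const_mul, integral_re (int_co C.s ν _ _ _), integral_re (int_co C.s ν _ _ _),
    ← inner_av, ← inner_av, e, e, mul, mapp, adjoint_inner_right, inner_self_eq_norm_sq,
    integral_const, probReal_univ, one_smul] at z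
  have z1 := (integral_eq_zero_iff_of_nonneg (fun g => sq_nonneg _) i4).1
    (le_antisymm (z.trans (by linarith)) (integral_nonneg fun g => sq_nonneg _))
  refine m.pos _ ((isOpen_ne_fun c1 (continuous_const (y := (0 : ℝ)))).mem_nhds ?_) z1
  simpa [sub_eq_zero] using h0

end av

variable {k : Type} [NontriviallyNormedField k] [ProperSpace k] {r : ℕ} {F : FlD k G r}

theorem exists_mean (h : Fl F) : ∃ ν : Measure G, IsProbabilityMeasure ν ∧
    Mean ν ((F.Z ⊓ Subgroup.centralizer (F.Z : Set G)) ⊔ F.Up) (F.P Finset.univ) := by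
  haveI : LocallyCompactSpace F.Z := h.clZ.locallyCompactSpace
  haveI : BorelSpace F.Z := Subtype.borelSpace (F.Z : Set G)
  obtain ⟨A, hA⟩ : ∃ A : Subgroup F.Z, ∀ z, z ∈ A ↔ ∃ t, F.a t = z :=
    ⟨⟨⟨⟨{z | ∃ t, F.a t = z}, by
      rintro _ _ ⟨s, hs⟩ ⟨t, ht⟩
      exact ⟨s + t, by rw [h.a_add, hs, ht]; rfl⟩⟩, 0, h.a_zero⟩, by
      rintro _ ⟨s, hs⟩
      exact ⟨-s, by rw [h.a_neg, hs]; rfl⟩⟩, fun _ => Iff.rfl⟩
  haveI : Countable A := Function.Surjective.countable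
    (f := fun t => (⟨⟨_, h.a_mem t⟩, (hA _).2 ⟨t, rfl⟩⟩ : A)) fun z =>
      ((hA _).1 z.2).imp fun t e => Subtype.ext (Subtype.ext e)
  have cl : Continuous fun z : F.Z => F.ℓ z :=
    h.contOn_ℓ.comp_continuous continuous_subtype_val fun z => h.z_mem z.2
  have hb := h.β_pos
  obtain ⟨D, hD⟩ : ∃ D : F.Z → Set F.Z, ∀ w z,
      z ∈ D w ↔ ∀ i, ⌊F.ℓ (w * z : F.Z) i / F.β + 1 / 2⌋ = 0 := ⟨fun w => {z | _}, fun _ _ => Iff.rfl⟩
  have mD : ∀ w, MeasurableSet (D w) := fun w => by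
    rw [show D w = ⋂ i, (fun z => ⌊F.ℓ (w * z : F.Z) i / F.β + 1 / 2⌋) ⁻¹' {0} from
      Set.ext fun z => by rw [hD, mem_iInter]; rfl]
    exact .iInter fun i => Measurable.floor (((continuous_apply i).comp
      (cl.comp (continuous_const_mul w))).measurable.div_const _ |>.add_const _) trivial
  have fD : ∀ w, IsFundamentalDomain A (D w) (Measure.haar : Measure F.Z) := fun w => by
    refine .mk' (mD w).nullMeasurableSet fun z => ?_
    have e : ∀ t (x : A), F.a t = (x : F.Z) → (x • z ∈ D w ↔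
        t = fun i => -⌊F.ℓ (w * z : F.Z) i / F.β + 1 / 2⌋) := fun t x e => by
      rw [hD, funext_iff]
      refine forall_congr' fun i => ?_
      rw [show ((w * (x • z) : F.Z) : G) = F.a t * (w * z : F.Z) by
        show (w : G) * (((x : F.Z) : G) * z) = F.a t * ((w : G) * z)
        rw [← e, ← mul_assoc, ← mul_assoc, h.a_comm t w.2],
        h.ℓ_mul (h.a_mem t) (w * z).2, h.ℓ_a, Pi.add_apply, add_div, mul_div_cancel_left₀ _ hb.ne',
        add_assoc, Int.floor_intCast_add, add_eq_zero_iff_eq_neg]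
    refine ⟨⟨⟨_, h.a_mem _⟩, (hA _).2 ⟨_, rfl⟩⟩, (e _ _ rfl).2 rfl, fun x hx => ?_⟩
    obtain ⟨t, ht⟩ := (hA _).1 x.2
    exact Subtype.ext (Subtype.ext (ht.symm.trans (congrArg F.a ((e t x ht).1 hx))))
  have n1 : D 1 ∈ 𝓝 (1 : F.Z) := by
    refine mem_of_superset ((isOpen_iInter_of_finite fun i => isOpen_lt
      ((continuous_apply i).comp cl).abs (continuous_const (y := F.β / 2))).mem_nhds
      (mem_iInter.2 fun i => ?_)) fun z hz => (hD _ _).2 fun i => ?_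
    · show |F.ℓ 1 i| < _
      rw [h.ℓ_one, Pi.zero_apply, abs_zero]; positivity
    · have := abs_lt.1 (show |F.ℓ z i| < _ from mem_iInter.1 hz i)
      rw [one_mul, Int.floor_eq_zero_iff, mem_Ico, div_add' _ _ _ hb.ne', le_div_iff₀ hb,
        div_lt_one hb]
      constructor <;> linarith
  have f1 : (Measure.haar : Measure F.Z) (D 1) ≠ ∞ := by
    refine ne_top_of_le_ne_top (h.clZ.isClosedEmbedding_subtypeVal.isCompact_preimage
      (h.zprop F.β)).measure_ne_top (measure_mono fun z hz => ⟨z.2, fun i => ?_⟩)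
    have := (hD _ _).1 hz i
    rw [one_mul, Int.floor_eq_zero_iff, mem_Ico, div_add' _ _ _ hb.ne', le_div_iff₀ hb,
      div_lt_one hb] at this
    exact abs_le.2 ⟨by linarith [this.1], by linarith [this.2]⟩
  have p1 := (Measure.measure_pos_of_mem_nhds (Measure.haar : Measure F.Z) n1).ne'
  haveI := ProbabilityTheory.cond_isProbabilityMeasure_of_finite p1 f1
  have mv : Measurable (Subtype.val : F.Z → G) := measurable_subtype_coe
  refine ⟨(ProbabilityTheory.cond Measure.haar (D 1)).map Subtype.val,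
    Measure.isProbabilityMeasure_map mv.aemeasurable, fun U hU h0 => ?_, fun f cf hf p hp => ?_⟩
  · have h1 := (Measure.le_map_apply mv.aemeasurable U).trans h0.le
    rw [ProbabilityTheory.cond_apply (mD 1), le_zero_iff, mul_eq_zero] at h1
    exact h1.elim (ENNReal.inv_ne_zero.2 f1) (Measure.measure_pos_of_mem_nhds _
      (inter_mem n1 (continuous_subtype_val.continuousAt hU))).ne'
  obtain ⟨z, hz, u, hu, rfl⟩ := h.P_univ.1 hp
  rw [integral_map mv.aemeasurable (show Continuous fun g => f (z * u * g) from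
      cf.comp (continuous_const_mul _)).aestronglyMeasurable,
    integral_map mv.aemeasurable cf.aestronglyMeasurable, ProbabilityTheory.cond,
    integral_smul_measure, integral_smul_measure]
  congr 1
  rw [(fD 1).setIntegral_eq (fD ⟨z, hz⟩⁻¹) (f := fun x : F.Z => f x) fun x y => ?_,
    ← (measurePreserving_mul_left Measure.haar (⟨z, hz⟩ : F.Z)).setIntegral_preimage_emb
      (MeasurableEquiv.mulLeft _).measurableEmbedding _ (D ⟨z, hz⟩⁻¹)]
  · rw [show (fun x => (⟨z, hz⟩ : F.Z) * x) ⁻¹' D ⟨z, hz⟩⁻¹ = D 1 from Set.ext fun x => by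
      rw [mem_preimage, hD, hD, inv_mul_cancel_left, one_mul]]
    refine integral_congr_ae (.of_forall fun x => ?_)
    have := hf (z * x) _ (Subgroup.mem_sup_right (h.zup _ (F.Z.inv_mem x.2) u hu))
    rwa [show z * x * ((x : G)⁻¹ * u * (x : G)⁻¹⁻¹) = z * u * x by group] at this
  · obtain ⟨t, ht⟩ := (hA _).1 x.2
    show f ((x : F.Z) * y) = f y
    rw [← ht, h.a_comm t y.2]
    exact hf _ _ (Subgroup.mem_sup_left ⟨h.a_mem t, fun w hw => (h.a_comm t hw).symm⟩)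

variable {k' : Type} [NontriviallyNormedField k'] [ProperSpace k'] {r' : ℕ} {F' : FlD k' G' r'}
  {X X' : Type} [NormedAddCommGroup X] [NormedSpace ℝ X] [NormedAddCommGroup X'] [NormedSpace ℝ X']
  {H : Subgroup G} {H' : Subgroup G'} {t : (Fin r → ℝ) →ₗ[ℝ] X} {t' : (Fin r' → ℝ) →ₗ[ℝ] X'}
  [MeasurableSpace (G' ⧸ H')] [BorelSpace (G' ⧸ H')] {C : Cpl μ μ' W}
  {L : (Fin r → ℝ) →ₗ[ℝ] X'} {θ : POM (G' ⧸ H') K} {η : Measure G}

/-- **UQ** from the orthogonality input -/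
theorem Tq.uq {a : G} {b : G'} (Q : Tq F' H' C θ H η a b) (h : Fl F) (h' : Fl F')
    (e' : F'.Ht H' t') (le : H ≤ F.P Finset.univ) (ha : a ∈ F.P Finset.univ) :
    ∃ S : Subgroup G, Group.IsSolvable S ∧ ∀ [CompactSpace (F'.Y Finset.univ)],
      UQ (C.s.π.comp S.subtype) C.t.π W
        fun f : C(F'.Y Finset.univ, ℂ) => θ.f (f ∘ F'.dir H' Finset.univ) := by
  borelize (F'.Y Finset.univ)
  haveI := h'.isClosed_P Finset.univ
  obtain ⟨ν, _, m⟩ := exists_mean h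
  have bd : ∀ [CompactSpace (F'.Y Finset.univ)] (f : C(F'.Y Finset.univ, ℂ)),
      Bd (f ∘ F'.dir H' Finset.univ) := fun f => bd_comp (bd_c f) (h'.cont_dir e' _).measurable
  refine ⟨_, P092SO.sol_center h, uq_of_mean C m (fun f => ?_) fun Φ h1 h2 h3 h4 f => ?_⟩
  · rw [← star_eq_adjoint, θ.star_f (bd f), ← Q.isP.mul _ _ (bd_star (bd f)) (bd f)]
    rfl
  · obtain ⟨Ψ, iΨ, e1⟩ := inv_of_ucp C (S := F.P Finset.univ) h1 h2 h3 fun s hs => h4 ⟨s, hs⟩
    rw [← e1]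
    exact Q.eq h' e' ((e1 1).trans h1.one) iΨ.cm iΨ.cov (fun g hg => iΨ.inv g (le hg))
      (iΨ.inv a ha) f (bd_c f)

/-- **UQ** for a cone calculus -/
theorem uq (T : P092EH.Th C F F' t' L θ) (h : Fl F) (h' : Fl F') (e : F.Ht H t) (e' : F'.Ht H' t')
    (hρ : ∀ x, t x = 0 → F.ρ x = 0) (hL : ∀ x, t x = 0 → L x = 0) (hη : Hm H η) (fin : Fn C η θ)
    {a : G} (ha : a ∈ F.P Finset.univ) {b : G'} (hb : b ∈ F'.Z) (reg : ∀ i, 0 < F'.ℓ b i)
    (ab : t' (F'.ℓ b) = L (F.ℓ a)) (vol : F'.ρ (F'.ℓ b) ≤ F.ρ (F.ℓ a)) :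
    ∃ S : Subgroup G, Group.IsSolvable S ∧ ∀ [CompactSpace (F'.Y Finset.univ)],
      UQ (C.s.π.comp S.subtype) C.t.π W
        fun f : C(F'.Y Finset.univ, ℂ) => θ.f (f ∘ F'.dir H' Finset.univ) :=
  Tq.uq ⟨T.isP, T.cm, T.cov, hη, fun x hx => h.uni_Ht e hρ hx,
    fun g hg => T.inv h' e' (e.le hg) (hL _ ((e g).1 hg).2), h.Ht_nrm e ha, hb, reg,
    T.sh' h' e' ha (h'.z_mem_P hb _) ab, by rwa [h.mdl_Ht e ha], fin⟩ h h' e' e.le ha

end Vale.Agent.P092UQ
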