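import Vale.Agent.P092HR.Defs
import Vale.Agent.P092RH.Com

/-!
P092, higher rank (helper22): the speed preserves the modulus.
-/

set_option linter.all false

open scoped InnerProductSpace ENNReal NNReal Pointwise
open MeasureTheory Filter Topology ContinuousLinearMap Set

namespace Vale.Agent.P092UQ

open Vale.Agent.P092CP Vale.Agent.P092RD Vale.Agent.P092GK Vale.Agent.P092HR
open Vale.Agent.P092MA (D5 Scl)

variable {k : Type} [NontriviallyNormedField k] [ProperSpace k] {G K : Type} [Group G]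
  [TopologicalSpace G] [IsTopologicalGroup G] [LocallyCompactSpace G] [SecondCountableTopology G]
  [T2Space G] [MeasurableSpace G] [BorelSpace G] [NormedAddCommGroup K] [InnerProductSpace ℂ K]
  [CompleteSpace K] {μ : Measure G} [μ.IsHaarMeasure] {W : Set (K →L[ℂ] K)} {r : ℕ}
  {X : Type} [NormedAddCommGroup X] [NormedSpace ℝ X] {F : FlD k G r} {C : Cpl μ μ W}
  {L : Aa r →ₗ[ℝ] Aa r} {E : POM (YY F) K} {H H' : Subgroup G} {t : Aa r →ₗ[ℝ] X}
  {θ : POM (G ⧸ H') K} {ϑ : G ⧸ H → POM (G ⧸ H') K} {ν : Measure (G ⧸ H)} {ν' : Measure (G ⧸ H')}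

/-- the scaling of an invariant measure on `G ⧸ H` under a right translation -/
theorem scale_eq (μ : Measure G) [μ.IsHaarMeasure] [μ.IsMulRightInvariant]
    (hH : IsClosed (H : Set G)) [SMulInvariantMeasure G (G ⧸ H) ν] [IsLocallyFiniteMeasure ν]
    (h0 : ν ≠ 0) {q : G} (hq : q ∈ Subgroup.normalizer (H : Set G)) {c : ℝ}
    (e : eo c • ν.map (rt H q) = ν) : c = mdl H q := by
  obtain ⟨η, h⟩ := exists_hm hH
  haveI := h.sfin
  haveI := P092RH.polish_lc G
  obtain ⟨Φ, hΦ⟩ : ∃ Φ : G ⧸ H → Measure G, ∀ (g : G) S, MeasurableSet S →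
      Φ g S = η {x | g * x ∈ S} := ⟨fun y => η.map (y.out * ·), fun g S hS => by
    obtain ⟨x, hx, e⟩ := out_mem H g
    show η.map ((g : G ⧸ H).out * ·) S = η ((g * ·) ⁻¹' S)
    rw [e, Measure.map_apply (measurable_const_mul _) hS,
      ← (h.mp_left hx).measure_preimage (measurable_const_mul g hS).nullMeasurableSet]
    simp only [mul_assoc]
    rfl⟩
  have mS : ∀ S, MeasurableSet S → Measurable fun y => Φ y S := fun S hS =>
    (QuotientGroup.continuous_mk.measurable.measurable_comp_iff_of_surjective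
      QuotientGroup.mk_surjective).1 (by
      rw [show (fun y => Φ y S) ∘ QuotientGroup.mk = fun g : G => η {x | g * x ∈ S} from
        funext fun g => hΦ g S hS]
      exact measurable_measure_prodMk_left (s := {q : G × G | q.1 * q.2 ∈ S}) (measurable_mul hS))
  have ap : ∀ S, MeasurableSet S → ν.bind Φ S = ∫⁻ y, Φ y S ∂ν := fun S hS =>
    Measure.bind_apply hS (Measure.measurable_of_measurable_coe _ mS).aemeasurable
  have fin : ∀ S, IsCompact S → ν.bind Φ S < ∞ := fun S hS => by
    have hS' := hS.image (QuotientGroup.continuous_mk (N := H))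
    rw [ap S hS.measurableSet]
    refine (lintegral_mono (g := (QuotientGroup.mk '' S).indicator fun _ => η (S⁻¹ * S))
      fun y => ?_).trans_lt ?_
    · by_cases hy : y ∈ QuotientGroup.mk '' S
      · rw [indicator_of_mem hy]
        obtain ⟨g, hg, rfl⟩ := hy
        rw [hΦ g S hS.measurableSet]
        exact measure_mono fun x hx => ⟨_, Set.inv_mem_inv.2 hg, _, hx, inv_mul_cancel_left _ _⟩
      · obtain ⟨g, rfl⟩ := QuotientGroup.mk_surjective y
        rw [hΦ g S hS.measurableSet]
        exact (h.mono (T := ∅) fun x hx hs =>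
          hy ⟨g * x, hs, QuotientGroup.mk_mul_of_mem g hx⟩).trans (by simp)
    · rw [lintegral_indicator_const hS'.measurableSet]
      exact ENNReal.mul_lt_top (h.fin _ (hS.inv.mul hS)) hS'.measure_lt_top
  obtain ⟨a, ha⟩ := (hm_top μ).uniq' (η' := ν.bind Φ) (.of_forall fun _ => trivial)
    (fun s _ => Measure.ext fun S hS => by
      rw [Measure.map_apply (measurable_const_mul s) hS, ap _ hS, ap _ (measurable_const_mul s hS),
        ← (measurePreserving_smul s ν).lintegral_comp (mS S hS)]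
      refine lintegral_congr fun y => ?_
      obtain ⟨g, rfl⟩ := QuotientGroup.mk_surjective y
      rw [mk_smul, hΦ _ _ hS, hΦ _ _ (measurable_const_mul s hS)]
      simp only [mul_assoc, mem_preimage]) fin
  obtain ⟨S, hS, h1⟩ := exists_compact_mem_nhds (1 : G)
  have m := hS.measurableSet
  have n0 : ν.bind Φ S ≠ 0 := by
    rw [ha]
    refine mul_ne_zero (fun e0 => ?_) (Measure.measure_pos_of_mem_nhds μ h1).ne'
    have := ap _ MeasurableSet.univ
    rw [ha, Measure.coe_nnreal_smul_apply, e0, zero_mul,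
      lintegral_congr (g := fun _ => η univ) fun y => by
        obtain ⟨g, rfl⟩ := QuotientGroup.mk_surjective y
        exact hΦ g _ MeasurableSet.univ, lintegral_const] at this
    exact mul_ne_zero (h.pos' univ_mem) (Measure.measure_univ_ne_zero.2 h0) this.symm
  have e1 : ν.bind Φ S = eo c * ∫⁻ y, Φ (rt H q y) S ∂ν := by
    rw [ap S m]
    conv_lhs => rw [← e, lintegral_smul_measure, lintegral_map (mS S m) (cont_rt hq).measurable]
    rfl
  have e2 : ν.bind Φ S = eo (mdl H q) * ∫⁻ y, Φ (rt H q y) S ∂ν := by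
    rw [show ν.bind Φ S = ν.bind Φ ((· * q) ⁻¹' S) by
      rw [ha, Measure.coe_nnreal_smul_apply, Measure.coe_nnreal_smul_apply,
        measure_preimage_mul_right], ap _ (measurable_mul_const q m),
      ← lintegral_const_mul' _ _ (eo_ne_top _)]
    refine lintegral_congr fun y => ?_
    obtain ⟨g, rfl⟩ := QuotientGroup.mk_surjective y
    rw [rt_mk hq, hΦ _ _ m, hΦ _ _ (measurable_mul_const q m), ← h.conj_apply hq]
    refine congrArg η (Set.ext fun x => ?_)
    show g * x * q ∈ S ↔ g * q * (q⁻¹ * x * q) ∈ S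
    rw [show g * q * (q⁻¹ * x * q) = g * x * q by group]
  refine eo_inj ((ENNReal.mul_left_inj (fun e0 => n0 ?_) fun e0 => (fin S hS).ne ?_).1
    (e1.symm.trans e2))
  · rw [e1, e0, mul_zero]
  · rw [e1, e0, ENNReal.mul_top (eo_ne_zero c)]

/-- **C1** -/
theorem c1 (g : Gr F) (s : Sp F L) (cs : Cs F L H H' t) (x : Tx F C L E H' t θ) (f : Fm C θ ϑ)
    (n : Nu F μ H ν) (d : D5 C ν ϑ ν') : ∀ x, F.ρ (L x) = F.ρ x := by
  have h := g.fl
  haveI := C.s.right
  haveI := d.inv'
  haveI := d.fin'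
  haveI := h.Ht_cl cs.src
  haveI := h.Ht_cl cs.tgt
  have key : ∀ p ∈ F.Z, F.ρ (L (F.ℓ p)) = F.ρ (F.ℓ p) := fun p hp => by
    obtain ⟨q, hq, e⟩ := s.lat p hp
    have hp' := h.z_mem_P hp Finset.univ
    have hq' := h.z_mem_P hq Finset.univ
    have n1 := h.Ht_nrm cs.src hp'
    have n2 := h.Ht_nrm cs.tgt hq'
    rw [← e, ← h.mdl_Ht cs.tgt hq']
    refine (scale_eq μ (h.Ht_cl cs.tgt) d.ne' n2 (d.map (r := rt H p)
      ⟨(cont_rt n1).measurable, (cont_rt n2).measurable, n.map p hp', fun z S hS => ?_⟩)).symm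
    obtain ⟨y, rfl⟩ := QuotientGroup.mk_surjective z
    rw [rt_mk n1]
    refine (f.base _ _ (bd_ind1 hS)).trans (.trans ?_
      (f.base _ _ (bd_ind1 ((cont_rt n2).measurable hS))).symm)
    rw [← C.s.conj_conj, x.mv p hp' q hq' (congrArg t e) _ (bd_ind1 hS)]
    rfl
  have e : F.ρ ∘ₗ L = F.ρ := LinearMap.pi_ext fun i c => by
    have := key _ (h.a_mem (Pi.single i 1))
    rw [h.ℓ_a, show (fun j => F.β * ((Pi.single i 1 : Fin r → ℤ) j : ℝ)) =
      F.β • (Pi.single i 1 : Aa r) from funext fun j => by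
        by_cases e : j = i <;> simp [Pi.single_apply, e], map_smul, map_smul, map_smul] at this
    rw [show (Pi.single i c : Aa r) = c • (Pi.single i 1 : Aa r) by
      rw [← Pi.single_smul, smul_eq_mul, mul_one], map_smul, map_smul]
    exact congrArg (c • ·) (smul_right_injective _ h.β_pos.ne' this)
  exact fun x => LinearMap.congr_fun e x

end Vale.Agent.P092UQ
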