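import Vale.Agent.P092EH.Erg
import Vale.Agent.P092TH.Mass

/-!
P092, higher rank (helper22): an invariant covariant measure on the flag space is the boundary
calculus.
-/

set_option linter.all false

open scoped InnerProductSpace ENNReal NNReal Pointwise
open MeasureTheory Filter Topology ContinuousLinearMap Set

namespace Vale.Agent.P092UQ

open Vale.Agent.P092CP Vale.Agent.P092RD Vale.Agent.P092GK Vale.Agent.P092EH
open Vale.Agent.P092RE (Up Lo meas_Tr lo_cover)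
open Vale.Agent.P092RS (ad)
open Vale.Agent.P092.RC (Cm Moore)

theorem indicator_inter_of {Y : Type} {A U : Set Y} {y : Y} (h : y ∈ U) :
    (A ∩ U).indicator (1 : Y → ℂ) y = A.indicator 1 y := by
  by_cases e : y ∈ A <;> simp [e, h]

theorem eq_of_orth {Y K : Type} [MeasurableSpace Y] [TopologicalSpace Y] [BorelSpace Y]
    [TopologicalSpace.PseudoMetrizableSpace Y] [NormedAddCommGroup K] [InnerProductSpace ℂ K]
    [CompleteSpace K] {E Ψ : POM Y K} (hE : E.IsP) (h1 : Ψ.f 1 = 1)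
    (h : ∀ A B, IsClosed A → IsClosed B → Disjoint A B → E.P A * Ψ.P B = 0) (φ : Y → ℂ)
    (hφ : Bd φ) : Ψ.f φ = E.f φ := by
  refine (POM.cls_ext Ψ E).of_pi (BorelSpace.measurable_eq.trans borel_eq_generateFrom_isClosed)
    isPiSystem_isClosed (by rw [h1, hE.one]) (fun A hA => ?_) φ hφ
  have mA := (hA : IsClosed A).measurableSet
  letI := TopologicalSpace.pseudoMetrizableSpacePseudoMetric Y
  obtain ⟨s, h2, h5, h3, h4⟩ := (hA : IsClosed A).isOpen_compl.exists_iUnion_isClosed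
  have d : ∀ n, Disjoint (s n) A := fun n => subset_compl_iff_disjoint_right.1 (h5 n)
  have a : E.P A * Ψ.P Aᶜ = 0 := ContinuousLinearMap.ext fun ξ =>
    tendsto_nhds_unique (((E.P A).continuous.tendsto _).comp
      (h3 ▸ Ψ.tendsto_P_iUnion (fun n => (h2 n).measurableSet) h4 ξ))
      (tendsto_const_nhds.congr fun n => (ap_eq (h _ _ hA (h2 n) (d n).symm) ξ).symm)
  have b : E.P Aᶜ * Ψ.P A = 0 := ContinuousLinearMap.ext fun ξ =>
    tendsto_nhds_unique (h3 ▸ E.tendsto_P_iUnion (fun n => (h2 n).measurableSet) h4 (Ψ.P A ξ))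
      (tendsto_const_nhds.congr fun n => (ap_eq (h _ _ (h2 n) hA (d n)) ξ).symm)
  rw [hE.P_compl mA, sub_mul, one_mul, sub_eq_zero] at b
  rw [← POM.P, ← POM.P, b, ← add_zero (_ * _), ← a, ← mul_add,
    ← Ψ.P_union mA mA.compl disjoint_compl_right, union_compl_self, Ψ.P_univ, h1, mul_one]

variable {G G' K : Type} [Group G] [TopologicalSpace G] [IsTopologicalGroup G]
  [LocallyCompactSpace G] [SecondCountableTopology G] [T2Space G] [MeasurableSpace G] [BorelSpace G]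
  [Group G'] [TopologicalSpace G'] [IsTopologicalGroup G'] [LocallyCompactSpace G']
  [SecondCountableTopology G'] [T2Space G'] [MeasurableSpace G'] [BorelSpace G']
  [NormedAddCommGroup K] [InnerProductSpace ℂ K] [CompleteSpace K] {μ : Measure G}
  [μ.IsHaarMeasure] {μ' : Measure G'} [μ'.IsHaarMeasure] {W : Set (K →L[ℂ] K)}
  {k : Type} [NontriviallyNormedField k] [ProperSpace k] {r : ℕ} {F : FlD k G' r}
  {X : Type} [NormedAddCommGroup X] [NormedSpace ℝ X] {H' : Subgroup G'}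
  {t : (Fin r → ℝ) →ₗ[ℝ] X}

omit [ProperSpace k] in
theorem shrink (h : Fl F) {b : G'} (hb : b ∈ F.Z) (reg : ∀ i, 0 < F.ℓ b i) {V : Set G'}
    (hV : IsCompact V) (hs : V ⊆ F.Ω) {O : Set (F.Y Finset.univ)}
    (hO : O ∈ 𝓝 ((1 : G') : F.Y Finset.univ)) :
    ∀ᶠ n : ℕ in atTop, ∀ v ∈ V, b ^ n • (v : F.Y Finset.univ) ∈ O := by
  obtain ⟨T, -, hT⟩ := h.um_contr (hV.image_of_continuousOn (h.lo_cont.mono hs))
    (QuotientGroup.continuous_mk.continuousAt hO)
  filter_upwards [eventually_all.2 fun i => (h.tendsto_pow hb (reg i)).eventually_ge_atTop T]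
    with n hn v hv
  have e : b ^ n • (v : F.Y Finset.univ) = ((b ^ n * F.lo v * (b ^ n)⁻¹ : G') : F.Y _) := by
    refine (QuotientGroup.eq.2 ?_).symm
    have := (F.P _).mul_mem (h.z_mem_P (F.Z.pow_mem hb n) Finset.univ) (h.lo_P (hs hv))
    rwa [show b ^ n * ((F.lo v)⁻¹ * v) = (b ^ n * F.lo v * (b ^ n)⁻¹)⁻¹ * (b ^ n * v) by group]
      at this
  rw [e]
  exact hT _ (F.Z.pow_mem hb n) hn _ ⟨v, hv, rfl⟩ (h.lo_mem v (hs hv))

variable [MeasurableSpace (F.Y Finset.univ)] [BorelSpace (F.Y Finset.univ)]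
  {Ψ : POM (F.Y Finset.univ) K}

theorem tend (h : Fl F) (S : Side μ' W) (cov : Cov S.π Ψ) {b : G'} (hb : b ∈ F.Z)
    (reg : ∀ i, 0 < F.ℓ b i) {B : Set (F.Y Finset.univ)} (hB : IsClosed B) {s : G'}
    (hs : s⁻¹ • ((1 : G') : F.Y Finset.univ) ∉ B) (ξ : K) :
    Tendsto (fun n : ℕ => (S.π ((b ^ n)⁻¹ * s) * Ψ.P B * S.π ((b ^ n)⁻¹ * s)⁻¹) ξ) atTop (𝓝 0) := by
  have mU : MeasurableSet ((fun g : G' => (g : F.Y Finset.univ)) '' F.Ω) :=
    (QuotientGroup.isOpenMap_coe _ h.isOpen_Ω).measurableSet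
  have h0 := (Ψ.P_eq_zero_iff mU.compl).1 (null S cov mU.compl fun ζ => by
    obtain ⟨x, rfl⟩ := QuotientGroup.mk_surjective ζ
    refine measure_eq_zero_iff_ae_notMem.2 ((h.ae_Ω_inv μ' 1 x).mono fun g hg e => e ⟨_, hg, ?_⟩)
    rw [one_mul]; rfl)
  have m : ∀ g : G', MeasurableSet ((fun ζ : F.Y Finset.univ => g • ζ) ⁻¹' B) := fun g =>
    measurable_const_smul g hB.measurableSet
  have h1 := Ψ.tendsto_strong (l := atTop) (C := 1) (F := fun n : ℕ =>
    (((fun ζ => ((b ^ n)⁻¹ * s)⁻¹ • ζ) ⁻¹' B) ∩ (fun g : G' => (g : F.Y Finset.univ)) '' F.Ω).indicator 1)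
    (fun n => bd_ind1 ((m _).inter mU)) bd_zero (fun n => norm_ind_le _) (fun y => ?_) ξ
  · rw [Ψ.zero] at h1
    refine h1.congr fun n => ap_eq ?_ ξ
    rw [cov.P _ hB.measurableSet]
    refine Ψ.congr_ae (bd_ind1 ((m _).inter mU)) (bd_ind1 (m _)) fun η => ?_
    filter_upwards [measure_eq_zero_iff_ae_notMem.1 (h0 η)] with y hy
    exact indicator_inter_of (not_not.1 hy)
  · refine tendsto_const_nhds.congr' ?_
    by_cases hy : y ∈ (fun g : G' => (g : F.Y Finset.univ)) '' F.Ω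
    · obtain ⟨g, hg, rfl⟩ := hy
      filter_upwards [((continuous_const_smul s⁻¹).tendsto _).comp (h.attract hb reg hg _)
        (hB.isOpen_compl.mem_nhds hs)] with n hn
      refine (indicator_of_notMem (fun e => hn ?_) _).symm
      have := e.1
      rwa [mem_preimage, mul_inv_rev, inv_inv, mul_smul] at this
    · exact .of_forall fun n => (indicator_of_notMem (fun e => hy e.2) _).symm

variable [MeasurableSpace (G' ⧸ H')] [BorelSpace (G' ⧸ H')]

/-- **the cone calculus**: `θ` lives on a cone of the target, is invariant under the unimodular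
group `H`, `a` acts on it by the right translation by the regular element `b`, volumes do not
grow, and the trace per unit volume of `H` is finite near the base point -/
structure Tq (F : FlD k G' r) (H' : Subgroup G') [MeasurableSpace (G' ⧸ H')] (C : Cpl μ μ' W)
    (θ : POM (G' ⧸ H') K) (H : Subgroup G) (η : Measure G) (a : G) (b : G') : Prop where
  isP : θ.IsP
  cm : ∀ f, Bd f → Cm W (θ.f f)
  cov : Cov C.t.π θ
  hm : Hm H η
  uni : ∀ x ∈ H, mdl H x = 0
  inv : ∀ g ∈ H, ∀ f, Bd f → C.s.π g * θ.f f * C.s.π g⁻¹ = θ.f f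
  nrm : a ∈ Subgroup.normalizer (H : Set G)
  mem : b ∈ F.Z
  reg : ∀ i, 0 < F.ℓ b i
  sh : ∀ f, Bd f → C.s.π a * θ.f f * C.s.π a⁻¹ = θ.f (f ∘ rt H' b)
  vol : F.ρ (F.ℓ b) ≤ mdl H a
  fin : ∃ L ∈ 𝓝 ((1 : G') : G' ⧸ H'), MeasurableSet L ∧ ∃ c : ℝ≥0∞, c ≠ ∞ ∧
    ∀ y, Cm W y → Up C.s η (fun n => n⁻¹) y 1 → C.t.Tr (θ.P L * adjoint y) ≤ c

variable {C : Cpl μ μ' W} {θ : POM (G' ⧸ H') K} {H : Subgroup G} {η : Measure G} {a : G} {b : G'}

theorem Tq.orth (T : Tq F H' C θ H η a b) (h : Fl F) (e : F.Ht H' t)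
    (cm : ∀ f, Bd f → Cm W (Ψ.f f)) (cov : Cov C.t.π Ψ)
    (inv : ∀ g ∈ H, ∀ f, Bd f → C.s.π g * Ψ.f f * C.s.π g⁻¹ = Ψ.f f)
    (ia : ∀ f, Bd f → C.s.π a * Ψ.f f * C.s.π a⁻¹ = Ψ.f f) {A B : Set (F.Y Finset.univ)}
    (hA : IsClosed A) (hB : IsClosed B) (d : Disjoint A B) :
    θ.P (F.dir H' Finset.univ ⁻¹' A) * Ψ.P B = 0 := by
  haveI := h.Ht_cl e
  haveI := C.t.right
  have hθ := T.isP
  obtain ⟨L₁, l1, l2, c₀, hc₀, fin⟩ := T.fin
  obtain ⟨V, V1, hV, cV⟩ := local_compact_nhds (inter_mem (h.isOpen_Ω.mem_nhds h.one_mem)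
    (QuotientGroup.continuous_mk.continuousAt l1))
  obtain ⟨L, hL⟩ : ∃ L, L = (fun g : G' => (g : G' ⧸ H')) '' V := ⟨_, rfl⟩
  have mL : MeasurableSet L := hL ▸ (cV.image QuotientGroup.continuous_mk).measurableSet
  obtain ⟨q, cq, hq⟩ := exists_ex T.hm C.s
  obtain ⟨c, c0, h1⟩ := cover h μ' e (L := L) (hL ▸ mk_nhds V1)
  have h3 : C.t.Tr (θ.P L * adjoint q) ≤ c₀ := le_trans (C.t.Tr_mono fun ξ =>
    hθ.norm_P_mono mL l2 (by rw [hL]; rintro _ ⟨v, hv, rfl⟩; exact (hV hv).2) _) (fin q cq hq.up)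
  have mA : MeasurableSet (F.dir H' Finset.univ ⁻¹' A) :=
    (hA.preimage (h.cont_dir e _)).measurableSet
  have bB := bd_ind1 hB.measurableSet
  have cy : Cm W (Ψ.P B) := cm _ bB
  have sy : adjoint (Ψ.P B) = Ψ.P B := Ψ.star_P hB.measurableSet
  have hy : ∀ g ∈ H, Ψ.P B * C.s.π g = C.s.π g * Ψ.P B := fun g hg => comm_of_conj (inv g hg _ bB)
  have cL : Cm W (θ.P L) := T.cm _ (bd_ind1 mL)
  have cA : Cm W (θ.P _) := T.cm _ (bd_ind1 mA)
  have cY : Cm W (θ.P L * adjoint q) := cm_mul cL (C.adj_cm cq)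
  have cT := cm_mul cA (cm_mul cy (C.adj_cm cq))
  have bP := h.z_mem_P T.mem Finset.univ
  have mr := fun n : ℕ => (cont_rt (h.Ht_nrm e (pow_mem bP n))).measurable
  have mS : ∀ n : ℕ, MeasurableSet {z | rt H' (b ^ n) ((b ^ n)⁻¹ • z) ∈ L} := fun n =>
    ((mr n).comp (measurable_const_smul _)) mL
  have e0 : ∀ s, C.t.π s * θ.P (F.dir H' Finset.univ ⁻¹' A) =
      θ.P ((fun z => s⁻¹ • z) ⁻¹' (F.dir H' Finset.univ ⁻¹' A)) * C.t.π s := fun s => by
    rw [← T.cov.P s mA, mul_assoc, pi_inv_mul, mul_one]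
  have up : ∀ (n : ℕ) s, eo (n * F.ρ (F.ℓ b)) * C.t.Tr (θ.P {z | rt H' (b ^ n) ((b ^ n)⁻¹ • z) ∈ L} *
      C.t.π s * (θ.P (F.dir H' Finset.univ ⁻¹' A) * (Ψ.P B * adjoint q))) ≤
      C.t.Tr (C.t.π ((b ^ n)⁻¹ * s) * Ψ.P B * C.t.π ((b ^ n)⁻¹ * s)⁻¹ * (θ.P L * adjoint q)) := by
    intro n s
    have e1 : θ.P {z | rt H' (b ^ n) ((b ^ n)⁻¹ • z) ∈ L} =
        ad C.t.π (b ^ n) (ad C.s.π (a ^ n) (θ.P L)) := by
      rw [POM.P, POM.P, ad, ad, sh_pow h e C.s bP T.sh n _ (bd_ind1 mL),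
        T.cov _ _ (bd_comp (bd_ind1 mL) (mr n))]
      rfl
    have h4 := shadow C T.hm T.uni hq cq cy (pow_mem T.nrm n) hy
      (comm_pow (comm_of_conj (ia _ bB)) n) cL (θ.star_P mL)
      (fun g hg => comm_of_conj (T.inv g hg _ (bd_ind1 mL))) (b ^ n) s
    rw [← e1, sy, mdl_pow T.hm.cl T.nrm] at h4
    rw [mul_assoc (C.t.π _), mul_assoc (C.t.π _), C.t.Tr_π_mul, mul_inv_rev, inv_inv]
    refine (mul_le_mul_right (le_trans (C.t.Tr_mono fun ξ => ?_) h4) _).trans ?_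
    · rw [← mul_assoc, mul_assoc _ (C.t.π s), e0, ← mul_assoc (θ.P _) (θ.P _),
        show θ.P _ * θ.P _ = θ.P _ * θ.P _ from
          hθ.comm (bd_ind1 (mS n)) (bd_ind1 (measurable_const_smul s⁻¹ mA))]
      exact θ.norm_P_apply_le (measurable_const_smul _ mA) _
    · rw [← mul_assoc, ← eo_add]
      refine mul_le_of_le_one_left' (le_trans (eo_le.2 ?_) eo_zero.le)
      linarith [mul_le_mul_of_nonneg_left T.vol n.cast_nonneg]
  have ms : ∀ m, MeasurableSet ((fun g : G' => (g : G' ⧸ H')) '' compactCovering G' m) := fun m =>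
    ((isCompact_compactCovering G' m).image QuotientGroup.continuous_mk).measurableSet
  have key : ∀ m, θ.P ((fun g : G' => (g : G' ⧸ H')) '' compactCovering G' m) *
      (θ.P (F.dir H' Finset.univ ⁻¹' A) * (Ψ.P B * adjoint q)) = 0 := fun m => by
    obtain ⟨Q, hQ, h2⟩ := h1 _ (isCompact_compactCovering G' m)
    haveI : IsFiniteMeasure (μ'.restrict Q) := isFiniteMeasure_restrict.2 hQ.measure_ne_top
    have h5 := tendsto_lintegral_filter_of_dominated_convergence (μ := μ'.restrict Q) (l := atTop)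
      (f := fun _ => 0) (fun _ => ‖Ψ.P B‖ₑ ^ 2 * c₀)
      (Eventually.of_forall fun n : ℕ => (meas_Tr C.t C.t measurable_id
        (θ.P {z | rt H' (b ^ n) ((b ^ n)⁻¹ • z) ∈ L})
        (θ.P (F.dir H' Finset.univ ⁻¹' A) * (Ψ.P B * adjoint q))).const_mul (eo (n * F.ρ (F.ℓ b))))
      (Eventually.of_forall fun n => Eventually.of_forall fun s => (up n s).trans (by
        rw [mul_assoc, mul_assoc, C.t.Tr_π_mul]
        refine (C.t.Tr_mul_le _ _).trans ?_
        rw [C.t.Tr_π_mul]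
        exact mul_le_mul_right h3 _))
      (by rw [lintegral_const]; finiteness)
      (Eventually.of_forall fun s => by
        by_cases hs : s⁻¹ • ((1 : G') : F.Y Finset.univ) ∈ B
        · refine tendsto_const_nhds.congr' ?_
          filter_upwards [shrink h T.mem T.reg cV (fun v hv => (hV hv).1)
            ((continuous_const_smul s⁻¹).continuousAt (hA.isOpen_compl.mem_nhds
              fun e' => disjoint_left.1 d e' hs))] with n hn
          rw [id, ← mul_assoc, mul_assoc _ (C.t.π s), e0, ← mul_assoc (θ.P _) (θ.P _),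
            hθ.P_disj (mS n) (measurable_const_smul _ mA) (disjoint_left.2 fun z z1 z2 => ?_)]
          · simp [Side.Tr]
          rw [hL] at z1
          obtain ⟨v, hv, z3⟩ := z1
          have z4 := congrArg (F.dir H' Finset.univ) z3
          rw [h.dir_rt e _ (pow_mem bP n), h.dir_smul e, h.dir_mk e] at z4
          have z5 := hn v hv
          rw [z4, smul_inv_smul] at z5
          exact z5 (by rwa [mem_preimage, mem_preimage, h.dir_smul e] at z2)
        · exact tendsto_of_tendsto_of_tendsto_of_le_of_le tendsto_const_nhds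
            (C.t.tendsto_Tr_mul (C := ‖Ψ.P B‖) (Eventually.of_forall fun u =>
              ⟨C.t.conj _ cy _, C.t.norm_conj_le _ _⟩) (tend h C.t cov T.mem T.reg hB hs) cY
              (ne_top_of_le_ne_top hc₀ h3)) (fun _ => zero_le) fun n => up n s)
    rw [lintegral_zero] at h5
    refine C.tr_zero _ (cm_mul (T.cm _ (bd_ind1 (ms m))) cT)
      ((mul_eq_zero.1 (le_zero_iff.1 (ge_of_tendsto' h5 fun n => ?_))).resolve_left c0)
    have h6 := (lo_cover C.t (ν := μ'.restrict Q) measurable_id hθ T.cov (ms m) (mS n)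
      (by rintro _ ⟨g, hg, rfl⟩; exact h2 _ (h.dom_pow ⟨T.mem, fun i => (T.reg i).le⟩ n) g hg)).Tr
      C.t measurable_id (θ.P (F.dir H' Finset.univ ⁻¹' A) * (Ψ.P B * adjoint q))
    rw [lintegral_const_mul' _ _ (eo_ne_top _)]
    refine le_trans (le_of_eq ?_) (mul_le_mul_right h6 _)
    rw [h.ℓ_pow T.mem, map_smul, smul_eq_mul, mul_comm c (eo _), ← mul_assoc (eo _),
      ← mul_assoc (eo _), ← eo_add, add_neg_cancel, eo_zero, one_mul]
  have h2 : θ.P (F.dir H' Finset.univ ⁻¹' A) * (Ψ.P B * adjoint q) = 0 := by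
    ext ξ
    have h4 := θ.tendsto_P_iUnion ms (fun i j hij => image_mono (compactCovering_subset G' hij))
      ((θ.P (F.dir H' Finset.univ ⁻¹' A) * (Ψ.P B * adjoint q)) ξ)
    rw [← image_iUnion, iUnion_compactCovering, image_univ,
      QuotientGroup.mk_surjective.range_eq, hθ.P_univ, oapp] at h4
    exact tendsto_nhds_unique h4 (tendsto_const_nhds.congr fun m => (ap_eq (key m) ξ).symm)
  have sA : adjoint (θ.P (F.dir H' Finset.univ ⁻¹' A)) = _ := θ.star_P mA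
  have h4 := eq_zero (T := Ψ.P B * θ.P (F.dir H' Finset.univ ⁻¹' A)) T.hm (hq.lo T.hm T.uni)
    one_ne_zero (fun g hg => by
      rw [mul_assoc, show θ.P _ * _ = _ * θ.P _ from comm_of_conj (T.inv g hg _ (bd_ind1 mA)),
        ← mul_assoc, hy g hg, mul_assoc])
    (by rw [← adjoint_adjoint (q * _), adj_mul q, adj_mul (Ψ.P B), sy, sA, mul_assoc, h2, map_zero])
  rw [← sA, ← sy, ← adj_mul, h4, map_zero]

/-- **uniqueness**, for measures -/
theorem Tq.eq (T : Tq F H' C θ H η a b) (h : Fl F) (e : F.Ht H' t) (h1 : Ψ.f 1 = 1)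
    (cm : ∀ f, Bd f → Cm W (Ψ.f f)) (cov : Cov C.t.π Ψ)
    (inv : ∀ g ∈ H, ∀ f, Bd f → C.s.π g * Ψ.f f * C.s.π g⁻¹ = Ψ.f f)
    (ia : ∀ f, Bd f → C.s.π a * Ψ.f f * C.s.π a⁻¹ = Ψ.f f) (φ : F.Y Finset.univ → ℂ) (hφ : Bd φ) :
    Ψ.f φ = θ.f (φ ∘ F.dir H' Finset.univ) := by
  haveI := h.isClosed_P Finset.univ
  exact eq_of_orth (T.isP.map (h.cont_dir e _).measurable) h1
    (fun A B => T.orth h e cm cov inv ia) φ hφ

end Vale.Agent.P092UQ
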